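import Vale.Agent.P011.H477.C2.LocT

/-!
# Squares in local function fields of characteristic two

Every element of the completion is `u ^ 2 + t * w ^ 2`, for every `t` which is not a square.
-/

open Filter Topology

set_option linter.unusedSectionVars false
set_option linter.unusedVariables false

namespace Vale.Agent.P011.H558.C2

open Vale.Agent.P011.H738 Vale.Agent.P011.H271 Vale.Agent.P011.Hey
open Vale.Agent.P011.H974.R6 (exists_zpow unif_pos unif_lt)
open Vale.Agent.P011.H477.C2 (exists_sq_near two_comp)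

section abs

variable {L : Type*} [NormedField L] [CompleteSpace L]

/-- Successive approximation by squares. -/
theorem exists_sum_sq (h2 : (2 : L) = 0) {p : L} (hp : ‖p‖ < 1)
    (hstep : ∀ c : L, ‖c‖ ≤ 1 → ∃ b c' : L, ‖b‖ ≤ 1 ∧ ‖c'‖ ≤ 1 ∧ c = b ^ 2 + p * c')
    {c : L} (hc : ‖c‖ ≤ 1) : ∃ u w : L, c = u ^ 2 + p * w ^ 2 := by
  have hstep2 : ∀ c : {x : L // ‖x‖ ≤ 1}, ∃ r : L × L × {x : L // ‖x‖ ≤ 1},
      ‖r.1‖ ≤ 1 ∧ ‖r.2.1‖ ≤ 1 ∧ c.1 = r.1 ^ 2 + p * r.2.1 ^ 2 + p ^ 2 * r.2.2.1 := by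
    rintro ⟨c, hc⟩
    obtain ⟨b, c', hb, hc', e⟩ := hstep c hc
    obtain ⟨b', c'', hb', hc'', e'⟩ := hstep c' hc'
    refine ⟨⟨b, b', ⟨c'', hc''⟩⟩, hb, hb', ?_⟩
    change c = b ^ 2 + p * b' ^ 2 + p ^ 2 * c''
    rw [e, e']
    ring
  choose r hr1 hr2 hr3 using hstep2
  let s : ℕ → {x : L // ‖x‖ ≤ 1} := fun n => Nat.rec ⟨c, hc⟩ (fun _ y => (r y).2.2) n
  have hs0 : s 0 = ⟨c, hc⟩ := rfl
  have hs : ∀ n, s (n + 1) = (r (s n)).2.2 := fun n => rfl
  have key : ∀ n, c = (∑ i ∈ Finset.range n, p ^ i * (r (s i)).1) ^ 2 +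
      p * (∑ i ∈ Finset.range n, p ^ i * (r (s i)).2.1) ^ 2 + (p ^ n) ^ 2 * (s n).1 := by
    intro n
    induction n with
    | zero =>
      rw [Finset.sum_range_zero, Finset.sum_range_zero, hs0]
      ring
    | succ n ih =>
      rw [Finset.sum_range_succ, Finset.sum_range_succ, hs]
      have h3 := hr3 (s n)
      linear_combination ih + (p ^ n) ^ 2 * h3 -
        ((∑ i ∈ Finset.range n, p ^ i * (r (s i)).1) * (p ^ n * (r (s n)).1) +
          p * ((∑ i ∈ Finset.range n, p ^ i * (r (s i)).2.1) * (p ^ n * (r (s n)).2.1))) * h2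
  have hgeo : Summable fun i : ℕ => ‖p‖ ^ i := summable_geometric_of_lt_one (norm_nonneg _) hp
  have hsu : Summable fun i : ℕ => p ^ i * (r (s i)).1 := by
    refine Summable.of_norm_bounded hgeo fun i => ?_
    rw [norm_mul, norm_pow]
    exact mul_le_of_le_one_right (pow_nonneg (norm_nonneg _) _) (hr1 _)
  have hsw : Summable fun i : ℕ => p ^ i * (r (s i)).2.1 := by
    refine Summable.of_norm_bounded hgeo fun i => ?_
    rw [norm_mul, norm_pow]
    exact mul_le_of_le_one_right (pow_nonneg (norm_nonneg _) _) (hr2 _)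
  have hp0 : Tendsto (fun n : ℕ => (p ^ n) ^ 2 * (s n).1) atTop (𝓝 0) := by
    refine squeeze_zero_norm (a := fun n => ‖p‖ ^ n) (fun n => ?_)
      (tendsto_pow_atTop_nhds_zero_of_lt_one (norm_nonneg _) hp)
    rw [norm_mul, norm_pow, norm_pow]
    have h4 : ‖p‖ ^ n ≤ 1 := pow_le_one₀ (norm_nonneg _) hp.le
    have h5 : 0 ≤ ‖p‖ ^ n := pow_nonneg (norm_nonneg _) _
    calc (‖p‖ ^ n) ^ 2 * ‖(s n).1‖ ≤ (‖p‖ ^ n) ^ 2 * 1 :=
          mul_le_mul_of_nonneg_left (s n).2 (by positivity)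
      _ ≤ ‖p‖ ^ n := by nlinarith
  refine ⟨∑' i, p ^ i * (r (s i)).1, ∑' i, p ^ i * (r (s i)).2.1, ?_⟩
  have hlim := (((hsu.hasSum.tendsto_sum_nat).pow 2).add
    (((hsw.hasSum.tendsto_sum_nat).pow 2).const_mul p)).add hp0
  rw [add_zero] at hlim
  refine tendsto_nhds_unique (tendsto_const_nhds (x := c) (f := (atTop : Filter ℕ))) ?_
  exact hlim.congr fun n => (key n).symm

end abs

section loc

variable {k : Type} [Field k] [GFF k]

/-- The uniformizer. -/
theorem exists_sq_unif (h2 : (2 : k) = 0) (v : Place k) (x : v.comp) :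
    ∃ u w : v.comp, x = u ^ 2 + algebraMap k v.comp (unif v) * w ^ 2 := by
  have h2v := two_comp h2 (v := v)
  have hp0 : algebraMap k v.comp (unif v) ≠ 0 := norm_pos_iff.mp (unif_pos v)
  have hp1 := unif_lt v
  have hstep : ∀ c : v.comp, ‖c‖ ≤ 1 → ∃ b c' : v.comp, ‖b‖ ≤ 1 ∧ ‖c'‖ ≤ 1 ∧
      c = b ^ 2 + algebraMap k v.comp (unif v) * c' := by
    intro c hc
    obtain ⟨b, hb⟩ := exists_sq_near h2 hc
    refine ⟨b, (c - b ^ 2) / algebraMap k v.comp (unif v), ?_, ?_, by field_simp; ring⟩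
    · have e : b ^ 2 = c + -(c - b ^ 2) := by ring
      have h3 : ‖b‖ ^ 2 ≤ 1 := by
        rw [← norm_pow, e]
        exact (IsUltrametricDist.norm_add_le_max _ _).trans
          (max_le hc (by rw [norm_neg]; exact hb.le))
      exact (pow_le_one_iff_of_nonneg (norm_nonneg _) two_ne_zero).mp h3
    · rw [norm_div, div_le_one (unif_pos v)]
      by_cases h0 : c - b ^ 2 = 0
      · rw [h0, norm_zero]
        exact norm_nonneg _
      obtain ⟨n, hn⟩ := exists_zpow v h0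
      rw [hn] at hb ⊢
      have hn1 : 1 ≤ n := by
        by_contra hcon
        have h4 : n ≤ 0 := by omega
        have h5 : (1 : ℝ) ≤ ‖algebraMap k v.comp (unif v)‖ ^ n :=
          one_le_zpow_of_nonpos₀ (unif_pos v) hp1.le h4
        exact absurd hb (not_lt.mpr h5)
      calc ‖algebraMap k v.comp (unif v)‖ ^ n ≤ ‖algebraMap k v.comp (unif v)‖ ^ (1 : ℤ) :=
            zpow_le_zpow_right_of_le_one₀ (unif_pos v) hp1.le hn1
        _ = _ := zpow_one _
  obtain ⟨m, hm⟩ : ∃ m : ℕ, ‖(algebraMap k v.comp (unif v) ^ m) ^ 2 * x‖ ≤ 1 := by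
    obtain ⟨m, hm⟩ := exists_pow_lt_of_lt_one (show (0 : ℝ) < (‖x‖ + 1)⁻¹ by positivity) hp1
    refine ⟨m, ?_⟩
    rw [norm_mul, norm_pow, norm_pow]
    have h3 : 0 ≤ ‖algebraMap k v.comp (unif v)‖ ^ m := pow_nonneg (norm_nonneg _) _
    have h4 : ‖algebraMap k v.comp (unif v)‖ ^ m ≤ 1 := pow_le_one₀ (norm_nonneg _) hp1.le
    have h5 : ‖algebraMap k v.comp (unif v)‖ ^ m * (‖x‖ + 1) ≤ 1 := by
      have := mul_le_mul_of_nonneg_right hm.le (show (0 : ℝ) ≤ ‖x‖ + 1 by positivity)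
      rwa [inv_mul_cancel₀ (by positivity)] at this
    nlinarith [norm_nonneg x, mul_nonneg h3 (norm_nonneg x),
      mul_nonneg (mul_nonneg h3 (norm_nonneg x)) (sub_nonneg.mpr h4)]
  obtain ⟨u, w, h⟩ := exists_sum_sq h2v hp1 hstep hm
  have hpm : algebraMap k v.comp (unif v) ^ m ≠ 0 := pow_ne_zero _ hp0
  refine ⟨u / algebraMap k v.comp (unif v) ^ m, w / algebraMap k v.comp (unif v) ^ m, ?_⟩
  have h' : x = (u ^ 2 + algebraMap k v.comp (unif v) * w ^ 2) /
      (algebraMap k v.comp (unif v) ^ m) ^ 2 := by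
    rw [← h, mul_div_cancel_left₀ _ (pow_ne_zero 2 hpm)]
  rw [h', div_pow, div_pow]
  field_simp

/-- **Every element of a local function field of characteristic two is `u ^ 2 + t * w ^ 2`, for
every `t` which is not a square.** -/
theorem sqb_comp (h2 : (2 : k) = 0) (v : Place k) {t : v.comp} (ht : ¬ IsSquare t) (x : v.comp) :
    ∃ u w : v.comp, x = u ^ 2 + t * w ^ 2 := by
  have h2v := two_comp h2 (v := v)
  obtain ⟨a, b, e⟩ := exists_sq_unif h2 v t
  obtain ⟨u, w, h⟩ := exists_sq_unif h2 v x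
  have hb : b ≠ 0 := by
    rintro rfl
    exact ht ⟨a, by rw [e]; ring⟩
  refine ⟨u + a * (w / b), w / b, ?_⟩
  have e3 : (w / b) * b = w := div_mul_cancel₀ _ hb
  have e4 : w ^ 2 = (w / b) ^ 2 * b ^ 2 := by rw [← mul_pow, e3]
  rw [h, e, e4]
  linear_combination (-(u * a * (w / b)) - a ^ 2 * (w / b) ^ 2) * h2v

end loc

end Vale.Agent.P011.H558.C2
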