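import Mathlib.LinearAlgebra.Matrix.NonsingularInverse
import Mathlib.LinearAlgebra.Matrix.Determinant.Basic
import Mathlib.Algebra.Algebra.Tower
import Mathlib.Algebra.Star.Basic
import Mathlib.Tactic

/-!
# The reduced norm of the elements `1 + μ j` in characteristic two, for rings

Here `j` is conjugate to `I`, where `I * I = I + ν`, and `I` is conjugate to `I + 1`.
-/

set_option linter.unusedSectionVars false
set_option linter.unusedVariables false

namespace Vale.Agent.P011.H558.C2

section det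

variable {K A Ω : Type*} [Field K] [Ring A] [Algebra K A] [Field Ω] [Algebra K Ω] {n m : ℕ}

/-- The determinant of a conjugate. -/
theorem det_conj2 (f : A →ₐ[K] Matrix (Fin n) (Fin n) Ω) {g g' : A} (hg : g * g' = 1) (x : A) :
    (f (g * x * g')).det = (f x).det := by
  have h1 : (f g).det * (f g').det = 1 := by
    rw [← Matrix.det_mul, ← map_mul, hg, map_one, Matrix.det_one]
  rw [map_mul, map_mul, Matrix.det_mul, Matrix.det_mul]
  linear_combination (f x).det * h1

theorem det_algebraMap2 (f : A →ₐ[K] Matrix (Fin n) (Fin n) Ω) (c : K) :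
    (f (algebraMap K A c)).det = algebraMap K Ω c ^ n := by
  rw [f.commutes, Algebra.algebraMap_eq_smul_one, Matrix.det_smul_of_tower, Matrix.det_one,
    Fintype.card_fin, Algebra.smul_def, mul_one, map_pow]

end det

section gg

variable {k K A Ω : Type*} [Field k] [Field K] [Ring A] [Algebra k K] [Algebra k A] [Algebra K A]
  [IsScalarTower k K A] [Field Ω] [Algebra K Ω] {n m : ℕ} {I w w' : A} {ν : k}

/-- **(R2c), characteristic two, for rings.** The reduced norm of `1 + μ I`. -/
theorem nrd_gg_one (h2 : (2 : k) = 0) (hn : n = 2 * m) (f : A →ₐ[K] Matrix (Fin n) (Fin n) Ω)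
    (hI : I * I = I + algebraMap k A ν) (hw : w * w' = 1) (hwI : w * I = (I + 1) * w) (μ : k) :
    (f (1 + μ • I)).det = algebraMap K Ω (algebraMap k K (1 + μ + μ ^ 2 * ν)) ^ m := by
  have h2K : (2 : K) = 0 := by rw [← map_ofNat (algebraMap k K) 2, h2, map_zero]
  have h2Ω : (2 : Ω) = 0 := by rw [← map_ofNat (algebraMap K Ω) 2, h2K, map_zero]
  have h2A : (2 : A) = 0 := by rw [← map_ofNat (algebraMap k A) 2, h2, map_zero]
  have e1 : w * (1 + μ • I) * w' = 1 + μ • (I + 1) := by
    have e : w * (1 + μ • I) = (1 + μ • (I + 1)) * w := by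
      rw [mul_add, mul_one, mul_smul_comm, hwI, add_mul 1 (μ • (I + 1)) w, one_mul,
        smul_mul_assoc]
    rw [e, mul_assoc, hw, mul_one]
  have e2 : (1 + μ • I) * (1 + μ • (I + 1)) =
      algebraMap K A (algebraMap k K (1 + μ + μ ^ 2 * ν)) := by
    rw [← IsScalarTower.algebraMap_apply k K A]
    have e3 : (1 + μ • I) * (1 + μ • (I + 1)) =
        1 + μ • (1 : A) + (2 * μ) • I + (μ * μ) • (I * I + I) := by
      simp only [mul_add, add_mul, mul_one, one_mul, smul_add, smul_mul_smul_comm, two_mul,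
        add_smul]
      abel
    have e4 : I * I + I = algebraMap k A ν := by
      rw [hI]
      have : I + algebraMap k A ν + I = 2 * I + algebraMap k A ν := by
        rw [two_mul]
        abel
      rw [this, h2A, zero_mul, zero_add]
    rw [e3, e4, h2, zero_mul, zero_smul, add_zero, Algebra.smul_def, mul_one, Algebra.smul_def,
      map_add, map_add, map_one, map_mul, map_mul, map_pow, pow_two]
  have h3 := det_conj2 f hw (1 + μ • I)
  rw [e1] at h3
  have h4 : (f (1 + μ • I)).det * (f (1 + μ • (I + 1))).det =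
      algebraMap K Ω (algebraMap k K (1 + μ + μ ^ 2 * ν)) ^ n := by
    rw [← Matrix.det_mul, ← map_mul, e2, det_algebraMap2]
  have h6 : algebraMap K Ω (algebraMap k K (1 + μ + μ ^ 2 * ν)) ^ n =
      algebraMap K Ω (algebraMap k K (1 + μ + μ ^ 2 * ν)) ^ m *
        algebraMap K Ω (algebraMap k K (1 + μ + μ ^ 2 * ν)) ^ m := by
    rw [← pow_add]
    congr 1
    omega
  rw [h3, h6] at h4
  have h5 : ((f (1 + μ • I)).det - algebraMap K Ω (algebraMap k K (1 + μ + μ ^ 2 * ν)) ^ m) ^ 2
      = 0 := by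
    linear_combination h4 + (algebraMap K Ω (algebraMap k K (1 + μ + μ ^ 2 * ν)) ^ m *
      algebraMap K Ω (algebraMap k K (1 + μ + μ ^ 2 * ν)) ^ m - (f (1 + μ • I)).det *
      algebraMap K Ω (algebraMap k K (1 + μ + μ ^ 2 * ν)) ^ m) * h2Ω
  exact sub_eq_zero.mp (pow_eq_zero_iff two_ne_zero |>.mp h5)

/-- **(R2c), characteristic two, for rings.** The reduced norm of `1 + μ j`, `j = g I g'`. -/
theorem nrd_gg2 (h2 : (2 : k) = 0) (hn : n = 2 * m) (f : A →ₐ[K] Matrix (Fin n) (Fin n) Ω)
    (hI : I * I = I + algebraMap k A ν) (hw : w * w' = 1) (hwI : w * I = (I + 1) * w) {g g' : A}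
    (hg : g * g' = 1) (μ : k) :
    (f (1 + μ • (g * I * g'))).det =
      algebraMap K Ω (algebraMap k K (1 + μ + μ ^ 2 * ν)) ^ m := by
  have e : 1 + μ • (g * I * g') = g * (1 + μ • I) * g' := by
    rw [mul_add, mul_one, add_mul, hg, mul_smul_comm, smul_mul_assoc]
  rw [e, det_conj2 f hg, nrd_gg_one h2 hn f hI hw hwI]

end gg

section unit

variable {A : Type*} [Ring A]

/-- An element of a ring of characteristic two with `w * I = (I + 1) * w` whose square is a unit,
or more generally whose square is not zero if the elements which commute with `I` are units, is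
a unit. -/
theorem isUnit_of_anti {I w : A} (h2 : (2 : A) = 0) (hwI : w * I = (I + 1) * w)
    (hdiv : ∀ c : A, c * I = I * c → c ≠ 0 → IsUnit c) (h0 : w * w ≠ 0) : IsUnit w := by
  have h1 : w * w * I = I * (w * w) := by
    have e : w * w * I = (I + 1 + 1) * (w * w) := by
      rw [mul_assoc, hwI, ← mul_assoc, mul_add, mul_one, hwI]
      noncomm_ring
    rw [e, add_assoc, one_add_one_eq_two, h2, add_zero]
  obtain ⟨u, hu⟩ := hdiv _ h1 h0
  have h3 : w * (w * ((u⁻¹ : Aˣ) : A)) = 1 := by
    rw [← mul_assoc, ← hu, Units.mul_inv]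
  have h4 : ((u⁻¹ : Aˣ) : A) * w * w = 1 := by
    rw [mul_assoc, ← hu, Units.inv_mul]
  exact isUnit_iff_exists.mpr ⟨w * ((u⁻¹ : Aˣ) : A), h3, by
    have h5 : w * ((u⁻¹ : Aˣ) : A) = ((u⁻¹ : Aˣ) : A) * w := by
      calc w * ((u⁻¹ : Aˣ) : A) = (((u⁻¹ : Aˣ) : A) * w * w) * (w * ((u⁻¹ : Aˣ) : A)) := by
            rw [h4, one_mul]
        _ = ((u⁻¹ : Aˣ) : A) * w * (w * (w * ((u⁻¹ : Aˣ) : A))) := by noncomm_ring
        _ = _ := by rw [h3, mul_one]
    rw [h5, h4]⟩

end unit

end Vale.Agent.P011.H558.C2
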