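import Vale.Agent.P011.H558.C2.Rot
import Vale.Agent.P011.H558.C2.NrdGG
import Vale.Agent.P011.H707.C2.Defs

/-!
# The reduced norm of `1 + μ j` and the two rotations in the letters of the reduction
-/

open Module

set_option linter.unusedSectionVars false
set_option linter.unusedVariables false

namespace Vale.Agent.P011.H558.C2

open Vale.Agent.P011.H738 Vale.Agent.P011.H271 Vale.Agent.P011.H698
open Vale.Agent.P011.H707.C2 (ImA AbAt2 Xs Wi gg)

section

variable {k K A Ω : Type} [Field k] [Field K] [Ring A] [StarRing A] [Algebra k K] [Algebra k A]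
  [Algebra K A] [IsScalarTower k K A] [Field Ω] [Algebra K Ω] {n m N : ℕ} {ν : k} {I : A}

/-- **(R2c), characteristic two.** The reduced norm of `1 + μ j`, `j` conjugate to `I`; `w` is any
unit which carries `I` to `I + 1`. -/
theorem nrd_ggA (h2 : (2 : k) = 0) (hn : n = 2 * m) (f : A →ₐ[K] Matrix (Fin n) (Fin n) Ω)
    (hI : I ∈ Xs A ν) {w : A} (hw : IsUnit w) (hwI : w * I = (I + 1) * w) (g : Aˣ) (μ : k) :
    (f (gg ((g : A) * I * ((g⁻¹ : Aˣ) : A)) μ)).det =
      algebraMap K Ω (algebraMap k K (1 + μ + μ ^ 2 * ν)) ^ m := by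
  obtain ⟨u, rfl⟩ := hw
  exact nrd_gg2 h2 hn f hI.2 (w' := ((u⁻¹ : Aˣ) : A)) u.mul_inv hwI g.mul_inv μ

/-- A nonzero element of `Wi I` is a unit if there are no isotropic elements and the elements which
commute with `I` are units. -/
theorem isUnit_of_wi (h2 : (2 : k) = 0) (hiso : ∀ x : A, star x * x = 0 → x = 0)
    (hdiv : ∀ c : A, c * I = I * c → c ≠ 0 → IsUnit c) {w : A} (hw : w ∈ Wi I) (h0 : w ≠ 0) :
    IsUnit w := by
  have h2A : (2 : A) = 0 := by rw [← map_ofNat (algebraMap k A) 2, h2, map_zero]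
  refine isUnit_of_anti h2A hw.2 hdiv fun h => h0 (hiso w ?_)
  rw [hw.1, h]

end

section

variable {k K A Ω : Type} [Field k] [GFF k] [Field K] [Ring A] [StarRing A] [Algebra k A]
  [Algebra K A] [Field Ω] [Algebra K Ω] {n N : ℕ}

/-- **(R7b), characteristic two.** -/
theorem rot_memA (hst : ∀ (c : k) (x : A), star (c • x) = c • star x)
    (f : A →ₐ[K] Matrix (Fin n) (Fin n) Ω) (B : Basis (Fin N) k A) (Q : Subgroup (SUA f))
    {κ : K} {t I : A} (hI : I = algebraMap K A κ + t) (hAb : AbAt2 B f (ImA Q) t) :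
    ∃ S : Finset (Place k), ∃ θ : ℝ, 0 < θ ∧ ∀ x ν₁ ν₂ i : A, x * star x = 1 →
      star x * x = 1 → (f x).det = 1 → ν₁ ∈ ImA Q → ν₂ ∈ ImA Q → ν₁ * I = i * ν₁ →
      ν₂ * i = (x * I * star x) * ν₂ →
      (∀ v ∈ S, Sm B v θ (x - 1) ∧ Sm B v θ (ν₁ - 1) ∧ Sm B v θ (ν₂ - 1)) → x ∈ ImA Q := by
  obtain ⟨S, ε, hε, h⟩ := hAb
  exact rot_mem2 hst f B Q hI ⟨S, ε, hε, fun e h1 h2 _ h3 h4 => h e h1 h2 h3 h4⟩

end

end Vale.Agent.P011.H558.C2
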