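import Vale.Agent.P011.H732D.Lag
import Vale.Agent.P011.H732D.C2.Uv
import Vale.Agent.P011.H698.Bd
import Vale.Agent.P011.H505.WangB
import Vale.Agent.P011.W.Nrd
import Vale.Agent.P011.Pow.Kappa

/-!
# Characteristic two: the reduced norms of a pencil as a pair of polynomials

`e` is an embedding of the field `k` in the centre `K'` of the division algebra `C`, and `w` is an
element of `K'` (the product of the good element and the element of trace one).
-/

open Module Polynomial

set_option linter.unusedSectionVars false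

namespace Vale.Agent.P011.H558.C2

open Vale.Agent.P011.H738 Vale.Agent.P011.H271 Vale.Agent.P011.H698
open Vale.Agent.P011.W (HasNrd)
open Vale.Agent.P011.H505.Wang (hasNrd_of_det)
open Vale.Agent.P011.H732D (exists_UV coeff_small)
open Vale.Agent.P011.H732D.C2 (uv2 uv2_eval uv2_deg)

section det

variable {k A : Type} [Field k] [Ring A] [Algebra k A] {N n : ℕ}

/-- Continuity of the determinant at a point, for rings. -/
theorem det_nearR (B : Basis (Fin N) k A) {Ω : Type} [Field Ω] [Algebra k Ω]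
    (G : A →ₗ[k] Matrix (Fin n) (Fin n) Ω) (Λ : Ω →ₗ[k] k) (v : Place k) (x₀ : A)
    {ε : ℝ} (hε : 0 < ε) : ∃ η : ℝ, 0 < η ∧ ∀ x : A, Sm B v η (x - x₀) →
      v.abv (Λ (G x).det - Λ (G x₀).det) < ε := by
  have hG : ∀ x : A, G x = ∑ j, B.repr x j • G (B j) := by
    intro x
    conv_lhs => rw [← B.sum_repr x]
    rw [map_sum]
    exact Finset.sum_congr rfl fun j _ => map_smul _ _ _
  have hc := @Pow.cont_det k Ω v.abv.toNormedField _ _ Λ n N fun j => G (B j)
  let _ : NormedField k := v.abv.toNormedField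
  have hc' := (Metric.continuous_iff.mp hc) (fun j => B.repr x₀ j) ε hε
  obtain ⟨η, hη, h⟩ := hc'
  refine ⟨η, hη, fun x hx => ?_⟩
  have h1 := h (fun j => B.repr x j) ?_
  · rw [hG x, hG x₀]
    rw [dist_eq_norm] at h1
    exact h1
  · rw [dist_pi_lt_iff hη]
    intro j
    rw [dist_eq_norm]
    have h2 := hx j
    simp only [map_sub, Finsupp.sub_apply] at h2
    exact h2

end det

section main

variable {k K' C A : Type} [Field k] [Field K'] [DivisionRing C] [Algebra K' C]
  [FiniteDimensional K' C] [Algebra.IsCentral K' C] [Ring A] [Algebra k A] {m N : ℕ}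

theorem nrd_scal (x : K') : HasNrd K' m (algebraMap K' C x) (x ^ m) := fun Ω _ _ f => by
  rw [AlgHom.commutes, Matrix.algebraMap_eq_diagonal, Matrix.det_diagonal]
  simp

/-- **The polynomials of a pencil** with reduced norms in the plane `k + k w`. -/
theorem exists_poly2 [Infinite k] (e : k →+* K') (w : K') (hC : finrank K' C = m ^ 2)
    {c0 c1 : C} (hpl : ∀ μ : k, ∃ p u : k,
      HasNrd K' m (c0 + algebraMap K' C (e μ) * c1) (e p + e u * w)) :
    ∃ U V : k[X], U.natDegree ≤ m ∧ V.natDegree ≤ m ∧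
      (∀ μ : k, HasNrd K' m (c0 + algebraMap K' C (e μ) * c1)
        (e (U.eval μ) + e (V.eval μ) * w)) ∧
      HasNrd K' m c1 (e (U.coeff m) + e (V.coeff m) * w) := by
  have : Infinite K' := Infinite.of_injective _ e.injective
  obtain ⟨g⟩ := Vale.Agent.P011S.exists_split (K := K') (D := C) hC (AlgebraicClosure K')
  let algK : Algebra k K' := e.toAlgebra
  have tow : IsScalarTower k K' (AlgebraicClosure K') := inferInstance
  have halg : ∀ c : k, algebraMap k (AlgebraicClosure K') c =
      algebraMap K' (AlgebraicClosure K') (e c) := fun c =>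
    IsScalarTower.algebraMap_apply k K' (AlgebraicClosure K') c
  have hg : ∀ μ : k, g (c0 + algebraMap K' C (e μ) * c1) =
      g c0 + algebraMap k (AlgebraicClosure K') μ • g c1 := by
    intro μ
    rw [map_add, map_mul, AlgHom.commutes, halg]
    congr 1
    rw [← Algebra.smul_def]
    ext i l
    rw [Matrix.smul_apply, Matrix.smul_apply, Algebra.smul_def, smul_eq_mul]
  obtain ⟨U, V, h1, h2, h3, h4⟩ := exists_UV (k := k)
    (algebraMap K' (AlgebraicClosure K') w) (g c0) (g c1) (fun μ => by
      obtain ⟨p, u, hpu⟩ := hpl μ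
      refine ⟨p, u, ?_⟩
      rw [← hg, hpu _ g, halg, halg, map_add, map_mul])
  refine ⟨U, V, h1, h2, fun μ => hasNrd_of_det hC g ?_, hasNrd_of_det hC g ?_⟩
  · rw [hg, h3, halg, halg, map_add, map_mul]
  · rw [h4, halg, halg, map_add, map_mul]

/-- The coordinates of the reduced norm are continuous. -/
theorem pu_near2 (e : k →+* K') (w : K')
    (hinj : ∀ p u : k, e p + e u * w = 0 → p = 0 ∧ u = 0) (hC : finrank K' C = m ^ 2)
    {ι : C →+* A} (hι : Function.Injective ι)
    (hιk : ∀ c : k, ι (algebraMap K' C (e c)) = algebraMap k A c)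
    (B : Basis (Fin N) k A) (v : Place k) {ε : ℝ} (hε : 0 < ε) {e0 : C} {p0 u0 : k}
    (h0 : HasNrd K' m e0 (e p0 + e u0 * w)) :
    ∃ η : ℝ, 0 < η ∧ ∀ (x : C) (p u : k), HasNrd K' m x (e p + e u * w) →
      Sm B v η (ι x - ι e0) → v.abv (p - p0) < ε ∧ v.abv (u - u0) < ε := by
  obtain ⟨g⟩ := Vale.Agent.P011S.exists_split (K := K') (D := C) hC (AlgebraicClosure K')
  let algK : Algebra k K' := e.toAlgebra
  let algC : Algebra k C := ((algebraMap K' C).comp e).toAlgebra' fun c x =>
    Algebra.commutes _ _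
  have tow : IsScalarTower k K' (AlgebraicClosure K') := inferInstance
  let jl : C →ₗ[k] A :=
    { toFun := ι
      map_add' := map_add ι
      map_smul' := fun c x => by
        rw [RingHom.id_apply, Algebra.smul_def, Algebra.smul_def, map_mul]
        exact congrArg (· * ι x) (hιk c) }
  obtain ⟨r, hr⟩ := jl.exists_leftInverse_of_injective (LinearMap.ker_eq_bot.mpr hι)
  have hr' : ∀ x : C, r (ι x) = x := fun x => LinearMap.congr_fun hr x
  let gl : C →ₗ[k] Matrix (Fin m) (Fin m) (AlgebraicClosure K') :=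
    { toFun := g
      map_add' := map_add g
      map_smul' := fun c x => by
        rw [RingHom.id_apply, Algebra.smul_def, map_mul]
        change g (algebraMap K' C (e c)) * g x = _
        rw [AlgHom.commutes, ← Algebra.smul_def]
        ext i l
        rw [Matrix.smul_apply, Matrix.smul_apply, Algebra.smul_def, Algebra.smul_def,
          IsScalarTower.algebraMap_apply k K' (AlgebraicClosure K')]
        rfl }
  let il : k × k →ₗ[k] K' :=
    { toFun := fun x => e x.1 + e x.2 * w
      map_add' := fun x y => by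
        rw [Prod.fst_add, Prod.snd_add, map_add, map_add]; ring
      map_smul' := fun c x => by
        rw [Prod.smul_fst, Prod.smul_snd, smul_eq_mul, smul_eq_mul, map_mul, map_mul,
          RingHom.id_apply, Algebra.smul_def]
        change _ = e c * _
        ring }
  have hker : LinearMap.ker il = ⊥ := by
    rw [LinearMap.ker_eq_bot']
    rintro ⟨x, y⟩ hxy
    obtain ⟨h1, h2⟩ := hinj x y hxy
    rw [h1, h2]
    rfl
  obtain ⟨r2, hr2⟩ := il.exists_leftInverse_of_injective hker
  have hr2' : ∀ p u : k, r2 (e p + e u * w) = (p, u) := fun p u =>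
    LinearMap.congr_fun hr2 (p, u)
  obtain ⟨ρ, hρ'⟩ := (Algebra.linearMap K' (AlgebraicClosure K')).exists_leftInverse_of_injective
    (LinearMap.ker_eq_bot.mpr (algebraMap K' (AlgebraicClosure K')).injective)
  have hρ : ∀ c, ρ (algebraMap K' (AlgebraicClosure K') c) = c := fun c =>
    LinearMap.congr_fun hρ' c
  let Λ : AlgebraicClosure K' →ₗ[k] k × k := r2.comp (ρ.restrictScalars k)
  have hΛ : ∀ p u : k, Λ (algebraMap K' (AlgebraicClosure K') (e p + e u * w)) = (p, u) :=
    fun p u => by
      change r2 (ρ _) = _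
      rw [hρ, hr2']
  obtain ⟨η₁, hη₁, H1⟩ := det_nearR B (gl.comp r) ((LinearMap.fst k k k).comp Λ) v (ι e0) hε
  obtain ⟨η₂, hη₂, H2⟩ := det_nearR B (gl.comp r) ((LinearMap.snd k k k).comp Λ) v (ι e0) hε
  refine ⟨min η₁ η₂, lt_min hη₁ hη₂, fun x p u hν hne => ?_⟩
  have e1 : ((gl.comp r) (ι x)).det = algebraMap K' (AlgebraicClosure K')
      (e p + e u * w) := by
    change (g (r (ι x))).det = _
    rw [hr', hν _ g]
  have e2 : ((gl.comp r) (ι e0)).det = algebraMap K' (AlgebraicClosure K')
      (e p0 + e u0 * w) := by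
    change (g (r (ι e0))).det = _
    rw [hr', h0 _ g]
  have h1 := H1 _ (hne.mono (min_le_left _ _))
  have h2 := H2 _ (hne.mono (min_le_right _ _))
  have f1 : ∀ z, ((LinearMap.fst k k k).comp Λ) z = (Λ z).1 := fun _ => rfl
  have f2 : ∀ z, ((LinearMap.snd k k k).comp Λ) z = (Λ z).2 := fun _ => rfl
  rw [e1, e2, f1, f1, hΛ, hΛ] at h1
  rw [e1, e2, f2, f2, hΛ, hΛ] at h2
  exact ⟨h1, h2⟩

/-- **The polynomials are close to those of `1 + w X`.** -/
theorem poly_near2 [Infinite k] (e : k →+* K') {w : K'} {ν : k} (hw : w * w = w + e ν)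
    (hinj : ∀ p u : k, e p + e u * w = 0 → p = 0 ∧ u = 0) (hC : finrank K' C = m ^ 2)
    {ι : C →+* A} (hι : Function.Injective ι)
    (hιk : ∀ c : k, ι (algebraMap K' C (e c)) = algebraMap k A c)
    (B : Basis (Fin N) k A) (v : Place k) {κ : ℝ} (hκ : 0 < κ) :
    ∃ η : ℝ, 0 < η ∧ ∀ (c0 c1 : C) (U V : k[X]), U.natDegree ≤ m → V.natDegree ≤ m →
      (∀ μ : k, HasNrd K' m (c0 + algebraMap K' C (e μ) * c1)
        (e (U.eval μ) + e (V.eval μ) * w)) →
      Sm B v η (ι c0 - 1) → Sm B v η (ι c1 - ι (algebraMap K' C w)) →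
      (∀ l, v.abv (U.coeff l - (uv2 ν m).1.coeff l) < κ) ∧
        ∀ l, v.abv (V.coeff l - (uv2 ν m).2.coeff l) < κ := by
  obtain ⟨x, η1, -, hη1, hx⟩ := coeff_small v.abv m hκ
  let algK : Algebra k K' := e.toAlgebra
  have hbase : ∀ μ : k, HasNrd K' m (1 + algebraMap K' C (e μ) * algebraMap K' C w)
      (e ((uv2 ν m).1.eval μ) + e ((uv2 ν m).2.eval μ) * w) := by
    intro μ
    have h1 := uv2_eval (ν := ν) (i := w) hw (e μ) m
    have h2 : ∀ P : k[X], aeval (e μ) P = e (P.eval μ) := fun P =>
      Polynomial.aeval_algebraMap_apply_eq_algebraMap_eval μ P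
    rw [h2, h2] at h1
    rw [h1, ← map_mul, ← map_one (algebraMap K' C), ← map_add, mul_comm (e μ) w]
    exact nrd_scal _
  choose η hη hne using fun i => pu_near2 e w hinj hC hι hιk B v hη1 (hbase (x i))
  obtain ⟨η', hη', hle⟩ : ∃ η' : ℝ, 0 < η' ∧ ∀ i, η' * (1 + v.abv (x i)) ≤ η i := by
    refine ⟨Finset.univ.inf' Finset.univ_nonempty fun i => η i / (1 + v.abv (x i)), ?_,
      fun i => ?_⟩
    · rw [Finset.lt_inf'_iff]
      intro i _
      have := v.abv.nonneg (x i)
      have := hη i
      positivity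
    · have h1 : 0 < 1 + v.abv (x i) := by
        have := v.abv.nonneg (x i)
        linarith
      rw [← le_div_iff₀ h1]
      exact Finset.inf'_le _ (Finset.mem_univ i)
  refine ⟨η', hη', fun c0 c1 U V hU hV hN h0 h1 => ?_⟩
  have hval : ∀ i, v.abv (U.eval (x i) - (uv2 ν m).1.eval (x i)) < η1 ∧
      v.abv (V.eval (x i) - (uv2 ν m).2.eval (x i)) < η1 := by
    intro i
    refine hne i _ _ _ (hN (x i)) ?_
    have e0 : ι (c0 + algebraMap K' C (e (x i)) * c1) -
        ι (1 + algebraMap K' C (e (x i)) * algebraMap K' C w) =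
        (ι c0 - 1) + x i • (ι c1 - ι (algebraMap K' C w)) := by
      rw [map_add, map_add, map_mul, map_mul, map_one, hιk, smul_sub, Algebra.smul_def,
        Algebra.smul_def]
      abel
    rw [e0]
    have h2 := v.abv.nonneg (x i)
    have h3 := hle i
    have h5 : η' ≤ η i := by nlinarith
    have h6 : v.abv (x i) * η' < η i := by nlinarith
    refine (h0.mono h5).add ?_
    intro l
    rw [map_smul, Finsupp.smul_apply, smul_eq_mul, map_mul]
    exact (mul_le_mul_of_nonneg_left (h1 l).le h2).trans_lt h6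
  obtain ⟨d1, d2⟩ := uv2_deg ν m
  refine ⟨fun l => ?_, fun l => ?_⟩
  · rw [← coeff_sub]
    refine hx _ ((natDegree_sub_le _ _).trans (max_le hU d1)) (fun i => ?_) l
    rw [eval_sub]
    exact (hval i).1
  · rw [← coeff_sub]
    refine hx _ ((natDegree_sub_le _ _).trans (max_le hV d2)) (fun i => ?_) l
    rw [eval_sub]
    exact (hval i).2

end main

end Vale.Agent.P011.H558.C2
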