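import Vale.Agent.P011.H732D.C2.Near
import Vale.Agent.P011.H738.FDefs

/-!
# The two rotations, for rings

Two elements of the subgroup which carry `I` to `x I x*` and the statement on the centralizer of
`t` give the membership of `x`.
-/

open Module

set_option linter.unusedSectionVars false
set_option linter.unusedVariables false

namespace Vale.Agent.P011.H558.C2

open Vale.Agent.P011.H738 Vale.Agent.P011.H271 Vale.Agent.P011.H698
open Vale.Agent.P011.H732D.C2 (mul_near conj_near)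

section near

variable {k A : Type} [Field k] [GFF k] [Ring A] [StarRing A] [Algebra k A] {N : ℕ}
  (B : Basis (Fin N) k A) (v : Place k)

/-- Left quotients of unitary elements close to one. -/
theorem ldiv_near2 (hst : ∀ (c : k) (x : A), star (c • x) = c • star x) {ε : ℝ} (hε : 0 < ε) :
    ∃ η : ℝ, 0 < η ∧ ∀ x y : A, y * star y = 1 → Sm B v η (x - 1) → Sm B v η (y - 1) →
      Sm B v ε (star y * x - 1) := by
  obtain ⟨η₁, h1, h1'⟩ := mul_near B v hst (1 : A) hε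
  obtain ⟨η₂, h2, h2'⟩ := conj_near B v hst (1 : A) h1
  refine ⟨min η₁ η₂, lt_min h1 h2, fun x y hy hx hyn => ?_⟩
  exact h1' _ _ (h2' y (star y) hy (hyn.mono (min_le_right _ _))).2.1
    (hx.mono (min_le_left _ _))

end near

section rot

variable {k K A Ω : Type} [Field k] [GFF k] [Field K] [Ring A] [StarRing A] [Algebra k A]
  [Algebra K A] [Field Ω] [Algebra K Ω] {n N : ℕ}

/-- **The two rotations, for rings**: if the set `M` (closed under products, of elements of `SU`)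
contains two elements close to one which carry `I` to `x I x*`, then `x` belongs to `M`. -/
theorem rot_mem_set (hst : ∀ (c : k) (x : A), star (c • x) = c • star x)
    (f : A →ₐ[K] Matrix (Fin n) (Fin n) Ω) (B : Basis (Fin N) k A) {M : Set A}
    (hM : ∀ x ∈ M, ∀ y ∈ M, x * y ∈ M)
    (hU : ∀ x ∈ M, x * star x = 1 ∧ star x * x = 1 ∧ (f x).det = 1) {κ : K} {t I : A}
    (hI : I = algebraMap K A κ + t) {S : Finset (Place k)} {ε : ℝ} (hε : 0 < ε)
    (hAb : ∀ e : A, e * t = t * e → star e * e = 1 → e * star e = 1 → (f e).det = 1 →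
      (∀ v ∈ S, Sm B v ε (e - 1)) → e ∈ M) :
    ∃ θ : ℝ, 0 < θ ∧ ∀ x ν₁ ν₂ i : A, x * star x = 1 → star x * x = 1 → (f x).det = 1 →
      ν₁ ∈ M → ν₂ ∈ M → ν₁ * I = i * ν₁ → ν₂ * i = (x * I * star x) * ν₂ →
      (∀ v ∈ S, Sm B v θ (x - 1) ∧ Sm B v θ (ν₁ - 1) ∧ Sm B v θ (ν₂ - 1)) → x ∈ M := by
  classical
  choose ε₁ hε₁ hd₁ using fun v : Place k => ldiv_near2 B v hst hε
  choose ε₂ hε₂ hd₂ using fun v : Place k => ldiv_near2 B v hst (hε₁ v)
  obtain ⟨θ, hθ, hθ'⟩ : ∃ θ : ℝ, 0 < θ ∧ ∀ v ∈ S, θ ≤ min (ε₁ v) (ε₂ v) := by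
    by_cases hne : S.Nonempty
    · obtain ⟨v, hv, hmin⟩ := S.exists_min_image (fun v => min (ε₁ v) (ε₂ v)) hne
      exact ⟨min (ε₁ v) (ε₂ v), lt_min (hε₁ v) (hε₂ v), hmin⟩
    · refine ⟨1, one_pos, fun v hv => absurd ⟨v, hv⟩ hne⟩
  refine ⟨θ, hθ, ?_⟩
  intro x ν₁ ν₂ i hx hx' hxd hν₁ hν₂ h1 h2 hnear
  obtain ⟨u₁, su₁, d₁⟩ := hU ν₁ hν₁
  obtain ⟨u₂, su₂, d₂⟩ := hU ν₂ hν₂
  -- the element of the centralizer
  obtain ⟨e, he⟩ : ∃ e : A, e = star ν₁ * (star ν₂ * x) := ⟨_, rfl⟩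
  have hxe : x = ν₂ * (ν₁ * e) := by
    rw [he, ← mul_assoc ν₁, u₁, one_mul, ← mul_assoc, u₂, one_mul]
  have h1' : star ν₁ * i = I * star ν₁ := by
    calc star ν₁ * i = star ν₁ * (i * ν₁) * star ν₁ := by
          rw [mul_assoc, mul_assoc, u₁, mul_one]
      _ = I * star ν₁ := by rw [← h1, ← mul_assoc, su₁, one_mul]
  have h2' : star ν₂ * (x * I) = i * (star ν₂ * x) := by
    calc star ν₂ * (x * I) = star ν₂ * ((x * I * star x) * ν₂) * (star ν₂ * x) := by
          calc star ν₂ * (x * I) = star ν₂ * (x * I * (star x * x)) := by rw [hx', mul_one]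
            _ = star ν₂ * (x * I * star x * (ν₂ * star ν₂) * x) := by
                rw [u₂, mul_one]
                simp only [mul_assoc]
            _ = _ := by simp only [mul_assoc]
      _ = i * (star ν₂ * x) := by rw [← h2, ← mul_assoc (star ν₂) ν₂ i, su₂, one_mul]
  have heI : e * I = I * e := by
    rw [he]
    calc star ν₁ * (star ν₂ * x) * I = star ν₁ * (star ν₂ * (x * I)) := by
          simp only [mul_assoc]
      _ = star ν₁ * i * (star ν₂ * x) := by rw [h2', mul_assoc]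
      _ = I * (star ν₁ * (star ν₂ * x)) := by rw [h1', mul_assoc]
  have het : e * t = t * e := by
    have h3 : t = I - algebraMap K A κ := by rw [hI]; abel
    rw [h3, mul_sub, sub_mul, heI, Algebra.commutes κ e]
  have hst' : star e = star x * ν₂ * ν₁ := by
    rw [he, star_mul, star_mul, star_star, star_star]
  have hest : star e * e = 1 := by
    rw [hst', he]
    calc star x * ν₂ * ν₁ * (star ν₁ * (star ν₂ * x)) =
        star x * (ν₂ * ((ν₁ * star ν₁) * star ν₂)) * x := by simp only [mul_assoc]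
      _ = 1 := by rw [u₁, one_mul, u₂, mul_one, hx']
  have hest' : e * star e = 1 := by
    rw [hst', he]
    calc star ν₁ * (star ν₂ * x) * (star x * ν₂ * ν₁) =
        star ν₁ * (star ν₂ * ((x * star x) * ν₂)) * ν₁ := by simp only [mul_assoc]
      _ = 1 := by rw [hx, one_mul, su₂, mul_one, su₁]
  have hdet : (f e).det = 1 := by
    have h3 := congrArg (fun z => (f z).det) hxe
    simp only [map_mul, Matrix.det_mul, hxd, d₁, d₂, one_mul] at h3
    exact h3.symm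
  have heQ : e ∈ M := by
    refine hAb e het hest hest' hdet fun v hv => ?_
    obtain ⟨m1, m2, m3⟩ := hnear v hv
    have c4 := hd₂ v x ν₂ u₂ (m1.mono ((hθ' v hv).trans (min_le_right _ _)))
      (m3.mono ((hθ' v hv).trans (min_le_right _ _)))
    have c5 := hd₁ v (star ν₂ * x) ν₁ u₁ c4 (m2.mono ((hθ' v hv).trans (min_le_left _ _)))
    rw [he]
    exact c5
  rw [hxe]
  exact hM _ hν₂ _ (hM _ hν₁ _ heQ)

/-- **(R7b), characteristic two, for rings.** -/
theorem rot_mem2 (hst : ∀ (c : k) (x : A), star (c • x) = c • star x)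
    (f : A →ₐ[K] Matrix (Fin n) (Fin n) Ω) (B : Basis (Fin N) k A) (Q : Subgroup (SUA f))
    {κ : K} {t I : A} (hI : I = algebraMap K A κ + t)
    (hAb : ∃ S : Finset (Place k), ∃ ε : ℝ, 0 < ε ∧ ∀ e : A, e * t = t * e → star e * e = 1 →
      e * star e = 1 → (f e).det = 1 → (∀ v ∈ S, Sm B v ε (e - 1)) →
      ∃ g ∈ Q, (((g : SUA f) : Aˣ) : A) = e) :
    ∃ S : Finset (Place k), ∃ θ : ℝ, 0 < θ ∧ ∀ x ν₁ ν₂ i : A, x * star x = 1 →
      star x * x = 1 → (f x).det = 1 → (∃ g ∈ Q, (((g : SUA f) : Aˣ) : A) = ν₁) →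
      (∃ g ∈ Q, (((g : SUA f) : Aˣ) : A) = ν₂) → ν₁ * I = i * ν₁ →
      ν₂ * i = (x * I * star x) * ν₂ →
      (∀ v ∈ S, Sm B v θ (x - 1) ∧ Sm B v θ (ν₁ - 1) ∧ Sm B v θ (ν₂ - 1)) →
      ∃ g ∈ Q, (((g : SUA f) : Aˣ) : A) = x := by
  obtain ⟨S, ε, hε, hab⟩ := hAb
  obtain ⟨θ, hθ, h⟩ := rot_mem_set hst f B
    (M := {e : A | ∃ g ∈ Q, (((g : SUA f) : Aˣ) : A) = e}) (by
      rintro _ ⟨g, hg, rfl⟩ _ ⟨g', hg', rfl⟩
      exact ⟨g * g', Q.mul_mem hg hg', rfl⟩) (by
      rintro _ ⟨g, -, rfl⟩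
      have h1 : ((g : Aˣ) : A) * star ((g : Aˣ) : A) = 1 := g.2.1
      have h2 : star ((g : Aˣ) : A) = (((g : Aˣ)⁻¹ : Aˣ) : A) := by
        rw [← Units.mul_right_inj (g : Aˣ), h1, Units.mul_inv]
      exact ⟨h1, by rw [h2, Units.inv_mul], g.2.2⟩) hI hε hab
  exact ⟨S, θ, hθ, h⟩

end rot

end Vale.Agent.P011.H558.C2
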